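import Vale.Agent.P022F.Sel.Defs
import Vale.Agent.P022D.Twq.Defs

/-!
# P022, non solvable case, block Twq: the choice of the auxiliary primes (statements)
-/

set_option linter.all false

noncomputable section

namespace Vale.Agent.P022F.Twq

open NumberField IsLocalRing
open Vale.Agent.P022 Vale.Agent.P022F.Sel
open Vale.Agent.P027M.S (Inert mx)

export Vale.Agent.P022D.Twq (disc Lv BigP Good)

/-- **The output of the block.** -/
def TWQ : Prop := ∀ (F O R : Type) [Field F] [Finite F] [CharP F 2] [CommRing O] [IsDomain O]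
  [CharZero O] [CommRing R] [Algebra O R] [IsLocalRing R] [IsNoetherianRing R]
  [IsAdicComplete (maximalIdeal R) R] (red : O →+* F) (lb : R →+* F) (x : R →+* O)
  (ρ : GQ →* M2 R) (ρb : GQ →* GL (Fin 2) F) (H : Subgroup GQ) (T : Finset ℕ) (D : ℕ → Set GQ)
  (Ps : Set (Ideal R)), Dh ρb H → 0 ∈ T → 2 ∈ T → (∀ l ∈ T, IsDec l (D l)) →
  Lv red lb x ρ ρb T → Ps.Finite → (∀ p ∈ Ps, BigP red ρ p) →
  ∃ (r : ℕ) (δ : Fin r → R), (∀ i, x (δ i) ≠ 0 ∧ ∀ p ∈ Ps, δ i ∉ p) ∧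
    ∀ (n : ℕ) (A : Finset ℕ), ∃ q : Fin r → ℕ, Function.Injective q ∧
      Tan ρb T (Finset.univ.image q) D (2 * r + 5) ∧
      ∀ i, q i ∉ A ∧ q i ∉ T ∧ Good ρ ρb n (δ i) (q i)

/-- **The output of the block**: the number of primes depends only on the residual data. -/
def TWQ2 : Prop := ∀ (F : Type) [Field F] [Finite F] [CharP F 2] (ρb : GQ →* GL (Fin 2) F)
  (H : Subgroup GQ) (T : Finset ℕ) (D : ℕ → Set GQ), Dh ρb H → 0 ∈ T → 2 ∈ T →
  (∀ l ∈ T, IsDec l (D l)) → ∃ r : ℕ, Tan ρb T ∅ D (2 * r + 5) ∧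
  ∀ (O R : Type) [CommRing O] [IsDomain O] [CharZero O] [CommRing R] [Algebra O R] [IsLocalRing R]
    [IsNoetherianRing R] [IsAdicComplete (maximalIdeal R) R] (red : O →+* F) (lb : R →+* F)
    (x : R →+* O) (ρ : GQ →* M2 R) (Ps : Set (Ideal R)), Lv red lb x ρ ρb T → Ps.Finite →
    (∀ p ∈ Ps, BigP red ρ p) →
    ∃ δ : Fin r → R, (∀ i, x (δ i) ≠ 0 ∧ ∀ p ∈ Ps, δ i ∉ p) ∧
      ∀ (n : ℕ) (A : Finset ℕ), ∃ q : Fin r → ℕ, Function.Injective q ∧
        Tan ρb T (Finset.univ.image q) D (2 * r + 5) ∧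
        ∀ i, q i ∉ A ∧ q i ∉ T ∧ Good ρ ρb n (δ i) (q i)

end Vale.Agent.P022F.Twq
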